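import Claimed.Agent.R257.Mr.Base
import Claimed.Agent.R257.Sp.Defs
import Claimed.Agent.R257.Infra.ArrB

/-!
# R257 / Mr / Sup : `MrSupStmt n` (t:multilinear, cube-supremum form; input of SPARSE, helper7) from `MR.mrloc`; the same for the lossless estimate `MrTaoStmt`            (helper13)
-/

set_option autoImplicit false

namespace Claimed.Agent.R257

open MeasureTheory Metric Set
open scoped ENNReal InnerProductSpace

variable {n : ℕ}

/-- a sum over unit cubes of products of separate suprema is dominated by the integral of the product of the `sx r`, `r = √n + 1` -/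
theorem mrx_sum_cubes (θ : ℝ) (hθ : 0 ≤ θ) (Y : Finset ((Fin n → ℤ) × ℤ)) (T : Set (ST n)) (hY : ∀ q ∈ Y, cube q ⊆ T) (f : Fin (n + 1) → E n → ℂ) :
    ∑ q ∈ Y, ∏ i, (⨆ z ∈ cube q, ‖ext (f i) z‖ₑ) ^ θ ≤ ∫⁻ z in T, (fun y => ∏ i, MR.sx (Real.sqrt n + 1) (f i) y ^ θ) (mrxRefl n z) := by
  have h1 : ∀ q ∈ Y, ∏ i, (⨆ z ∈ cube q, ‖ext (f i) z‖ₑ) ^ θ ≤ ∫⁻ z in cube q, (fun y => ∏ i, MR.sx (Real.sqrt n + 1) (f i) y ^ θ) (mrxRefl n z) := by
    intro q _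
    calc ∏ i, (⨆ z ∈ cube q, ‖ext (f i) z‖ₑ) ^ θ = ∫⁻ _ in cube q, ∏ i, (⨆ z ∈ cube q, ‖ext (f i) z‖ₑ) ^ θ := by
          rw [setLIntegral_const, inf_cube_volume, mul_one]
      _ ≤ _ := by
          refine setLIntegral_mono' (inf_cube_measurable q) fun z hz => ?_
          refine Finset.prod_le_prod' fun i _ => ENNReal.rpow_le_rpow (iSup₂_le fun y hy => ?_) hθ
          rw [mrx_ext]
          refine MR.le_sx_of_dist _ ?_
          rw [mrx_refl_dist]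
          exact inf_cube_subset_ball q hz hy
  have hdisj : Set.PairwiseDisjoint (↑Y : Set ((Fin n → ℤ) × ℤ)) (fun q => (cube q : Set (ST n))) := by
    intro q _ q' _ hne
    refine Set.disjoint_left.2 fun z hz hz' => hne ?_
    exact (inf_cube_partition z).unique hz hz'
  calc ∑ q ∈ Y, ∏ i, (⨆ z ∈ cube q, ‖ext (f i) z‖ₑ) ^ θ
      ≤ ∑ q ∈ Y, ∫⁻ z in cube q, (fun y => ∏ i, MR.sx (Real.sqrt n + 1) (f i) y ^ θ) (mrxRefl n z) := Finset.sum_le_sum h1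
    _ = ∫⁻ z in ⋃ q ∈ Y, cube q, (fun y => ∏ i, MR.sx (Real.sqrt n + 1) (f i) y ^ θ) (mrxRefl n z) :=
        (lintegral_biUnion_finset hdisj (fun q _ => inf_cube_measurable q) _).symm
    _ ≤ _ := lintegral_mono_set (Set.iUnion₂_subset hY)

/-- conversion of the right hand sides -/
theorem mrx_prod_l2 {R₀ : ℝ} {f : Fin (n + 1) → E n → ℂ} (hf : ∀ i, Dat R₀ (f i)) {κ : ℝ} (hκ : 0 ≤ κ) :
    ∏ i, MR.l2 (f i) ^ κ = ENNReal.ofReal (∏ i, (∫ ξ, ‖f i ξ‖ ^ 2) ^ κ) := by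
  rw [ENNReal.ofReal_prod_of_nonneg fun i _ => Real.rpow_nonneg (integral_nonneg fun ξ => by positivity) _]
  refine Finset.prod_congr rfl fun i _ => ?_
  rw [mrx_l2 (hf i), ENNReal.ofReal_rpow_of_nonneg (integral_nonneg fun ξ => by positivity) hκ]

/-- **Lemma t:multilinear, cube-supremum form.** -/
theorem mr_sup (n : ℕ) (hn : 1 ≤ n) : MrSupStmt n := by
  intro R₀ ε hε
  obtain ⟨C, M₀, hC, h⟩ := MR.mrloc (V := E n) n hn mrx_finrank (max R₀ 0) (Real.sqrt n + 1) ε (le_max_right _ _) (by positivity) hε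
  refine ⟨C, M₀, fun S Q Y z₀ f hS hQ hY hf hT => ?_⟩
  have hnR : (0 : ℝ) < (n : ℝ) := by exact_mod_cast hn
  have h1 := h Q S (mrxRefl n z₀) f hQ hS (fun ξ hξ t => hT ξ hξ t) (fun i => (hf i).meas)
    (fun i ξ hξ => ((hf i).supp ξ hξ).trans (le_max_left _ _)) (fun i => mrx_l2_lt_top (hf i))
  rw [mrx_prod_l2 hf (by positivity), ← ENNReal.ofReal_mul (by positivity)] at h1
  rw [Real.rpow_natCast]
  refine ((mrx_sum_cubes (2 / (n : ℝ)) (by positivity) Y _ hY f).trans (le_of_eq ?_)).trans h1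
  exact mrx_setLIntegral (fun y => ∏ i, MR.sx (Real.sqrt n + 1) (f i) y ^ (2 / (n : ℝ))) z₀ S

/-- **Lossless multilinear restriction above the endpoint** (Tao 2020, Theorem 1.7 for the paraboloid), cube-supremum form, polynomial in the transversality -/
def MrTaoStmt (n : ℕ) : Prop :=
  ∀ R₀ p : ℝ, 2 * ((n : ℝ) + 1) / n < p → ∃ C M : ℝ, ∀ (Q : ℝ) (Y : Finset ((Fin n → ℤ) × ℤ)) (f : Fin (n + 1) → E n → ℂ),
    1 ≤ Q → (∀ i, Dat R₀ (f i)) → TransvS Q f →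
    ∑ q ∈ Y, ∏ i, (⨆ z ∈ cube q, ‖ext (f i) z‖ₑ) ^ (p / ((n : ℝ) + 1)) ≤
      ENNReal.ofReal (C * Q ^ M * ∏ i, (∫ ξ, ‖f i ξ‖ ^ 2) ^ (p / ((n : ℝ) + 1) / 2))

theorem mr_tao (n : ℕ) (hn : 1 ≤ n) : MrTaoStmt n := by
  intro R₀ p hp
  obtain ⟨C, M₀, hC, h⟩ := MR.mrl (V := E n) n hn mrx_finrank (max R₀ 0) (Real.sqrt n + 1) p (le_max_right _ _) (by positivity) hp
  refine ⟨C, M₀, fun Q Y f hQ hf hT => ?_⟩
  have hnR : (0 : ℝ) < (n : ℝ) := by exact_mod_cast hn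
  have hp0 : 0 < p := lt_trans (by positivity) hp
  have h1 := h Q f hQ (fun ξ hξ t => hT ξ hξ t) (fun i => (hf i).meas)
    (fun i ξ hξ => ((hf i).supp ξ hξ).trans (le_max_left _ _)) (fun i => mrx_l2_lt_top (hf i))
  rw [mrx_prod_l2 hf (by positivity), ← ENNReal.ofReal_mul (by positivity)] at h1
  rw [Real.rpow_natCast]
  refine ((mrx_sum_cubes (p / ((n : ℝ) + 1)) (by positivity) Y univ (fun _ _ => subset_univ _) f).trans (le_of_eq ?_)).trans h1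
  rw [Measure.restrict_univ]
  exact mrx_lintegral (fun y => ∏ i, MR.sx (Real.sqrt n + 1) (f i) y ^ (p / ((n : ℝ) + 1)))

end Claimed.Agent.R257
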