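import Claimed.Agent.Lib.MR.Top
import Claimed.Agent.R257.Infra.Defs

/-!
# R257 / Mr / Base : dictionary between `Lib/MR` (abstract `V`, phase `x·ξ + t|ξ|²`) and `R257` (`E n`, phase `x·ξ - t|ξ|²`)            (helper13)
-/

set_option autoImplicit false

namespace Claimed.Agent.R257

open MeasureTheory Metric Set
open scoped ENNReal InnerProductSpace

variable {n : ℕ}

/-- the time reflection -/
noncomputable def mrxRefl (n : ℕ) : ST n ≃ᵐ ST n := MeasurableEquiv.prodCongr (MeasurableEquiv.refl (E n)) (MeasurableEquiv.neg ℝ)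

theorem mrx_refl_apply (z : ST n) : mrxRefl n z = (z.1, -z.2) := rfl

theorem mrx_refl_mp : MeasurePreserving (mrxRefl n) volume volume := by
  have h : MeasurePreserving (Prod.map (id : E n → E n) (Neg.neg : ℝ → ℝ)) (volume.prod volume) (volume.prod volume) :=
    (MeasurePreserving.id volume).prod (Measure.measurePreserving_neg volume)
  exact h

theorem mrx_refl_dist (y z : ST n) : dist (mrxRefl n y) (mrxRefl n z) = dist y z := by
  simp only [mrx_refl_apply, Prod.dist_eq, Real.dist_eq]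
  congr 1
  rw [← abs_neg]
  congr 1
  ring

theorem mrx_refl_preimage_ball (z₀ : ST n) (S : ℝ) : mrxRefl n ⁻¹' closedBall (mrxRefl n z₀) S = closedBall z₀ S := by
  ext z
  simp only [mem_preimage, mem_closedBall, mrx_refl_dist]

/-- the two extension operators -/
theorem mrx_ext (g : E n → ℂ) (z : ST n) : ext g z = MR.ext g (mrxRefl n z) := by
  unfold ext MR.ext
  refine integral_congr_ae (Filter.Eventually.of_forall fun ξ => ?_)
  simp only [car, BD.ch, BD.pr, MR.gam, mrx_refl_apply]
  congr 2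
  push_cast
  ring

theorem mrx_lintegral (F : ST n → ℝ≥0∞) : ∫⁻ z, F (mrxRefl n z) = ∫⁻ z, F z :=
  mrx_refl_mp.lintegral_comp_emb (mrxRefl n).measurableEmbedding F

theorem mrx_setLIntegral (F : ST n → ℝ≥0∞) (z₀ : ST n) (S : ℝ) :
    ∫⁻ z in closedBall z₀ S, F (mrxRefl n z) = ∫⁻ z in closedBall (mrxRefl n z₀) S, F z := by
  rw [← mrx_refl_preimage_ball]
  exact mrx_refl_mp.setLIntegral_comp_preimage_emb (mrxRefl n).measurableEmbedding F _

theorem mrx_finrank : Module.finrank ℝ (E n) = n := by simp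

/-- `∫ |g|²` in the two languages -/
theorem mrx_l2 {R₀ : ℝ} {g : E n → ℂ} (hg : Dat R₀ g) : MR.l2 g = ENNReal.ofReal (∫ ξ, ‖g ξ‖ ^ 2) := by
  have hi : Integrable (fun ξ => ‖g ξ‖ ^ 2) := by
    have := hg.l2.integrable_norm_rpow (by norm_num) (by norm_num)
    simpa using this
  rw [ofReal_integral_eq_lintegral_ofReal hi (Filter.Eventually.of_forall fun ξ => by positivity)]
  unfold MR.l2
  refine lintegral_congr fun ξ => ?_
  rw [← ofReal_norm, ENNReal.ofReal_rpow_of_nonneg (norm_nonneg _) (by norm_num)]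
  norm_num

theorem mrx_l2_lt_top {R₀ : ℝ} {g : E n → ℂ} (hg : Dat R₀ g) : MR.l2 g < ∞ := by
  rw [mrx_l2 hg]; exact ENNReal.ofReal_lt_top

end Claimed.Agent.R257
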